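import Vale.Agent.P058.LRW.NotSub

/-! Ramsey sets which are not subtransitive. -/

namespace Vale.Agent.Results.P058.LRWFalse

open Vale.Agent.P058

/-- Every cyclic kite is Ramsey, only countably many of them are subtransitive, hence some finite
Ramsey set is not subtransitive and being Ramsey is not equivalent to being subtransitive. -/
theorem result :
    (∀ p : ℝ, 0 < p → p < 1 → IsRamsey (kite p)) ∧
    {p : ℝ | 0 < p ∧ p < 1 ∧ IsSubtransitive (kite p)}.Countable ∧
    (∃ A : Set (EuclideanSpace ℝ (Fin 2)),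
      A.Finite ∧ A.Nonempty ∧ IsRamsey A ∧ ¬ IsSubtransitive A) ∧
    ¬ ∀ (d : ℕ) (A : Set (EuclideanSpace ℝ (Fin d))),
        A.Finite → A.Nonempty → (IsRamsey A ↔ IsSubtransitive A) := by
  obtain ⟨p, hp, hp1, hns⟩ := exists_not_subtransitive
  have hfin : (kite p).Finite := Set.finite_range _
  have hne : (kite p).Nonempty := Set.range_nonempty _
  exact ⟨fun q hq hq1 => isRamsey_kite hq hq1, countable_subtransitive,
    ⟨kite p, hfin, hne, isRamsey_kite hp hp1, hns⟩,
    fun h => hns ((h 2 (kite p) hfin hne).1 (isRamsey_kite hp hp1))⟩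

end Vale.Agent.Results.P058.LRWFalse
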