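import Mathlib
import Vale.Agent.P058.LRW.Defs
import Vale.Agent.P058.Spherical.NonRamsey

noncomputable section

namespace Vale.Agent.Results.P058.SphericalNotRamsey

open Vale.Agent.P058 Vale.Agent.P058.Spherical

/-- There is a finite concyclic set in the plane which is not Ramsey: in every dimension some
12-colouring has no monochromatic congruent copy; in particular it fails the definition of Ramsey. -/
theorem result :
    ∃ X : Finset (EuclideanSpace ℝ (Fin 2)), X.Nonempty ∧ (∀ x ∈ X, ‖x‖ = 1) ∧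
      (∀ D : ℕ, ∃ col : EuclideanSpace ℝ (Fin D) → Fin 12,
        ∀ f : EuclideanSpace ℝ (Fin 2) → EuclideanSpace ℝ (Fin D),
          (∀ x ∈ X, ∀ y ∈ X, dist (f x) (f y) = dist x y) →
            ¬ ∃ k, ∀ x ∈ X, col (f x) = k) ∧
      ¬ IsRamsey (X : Set (EuclideanSpace ℝ (Fin 2))) := by
  classical
  obtain ⟨c, s, h1, hcol⟩ := exists_spherical_colouring
  have main : ∀ D : ℕ, ∃ col : EuclideanSpace ℝ (Fin D) → Fin 12,
      ∀ f : EuclideanSpace ℝ (Fin 2) → EuclideanSpace ℝ (Fin D),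
        (∀ x ∈ Finset.univ.image (pt c s), ∀ y ∈ Finset.univ.image (pt c s),
            dist (f x) (f y) = dist x y) →
          ¬ ∃ k, ∀ x ∈ Finset.univ.image (pt c s), col (f x) = k := by
    intro D
    obtain ⟨col, hc⟩ := hcol D
    refine ⟨col, fun f hf ⟨k, hk⟩ => ?_⟩
    have hm : ∀ i, pt c s i ∈ Finset.univ.image (pt c s) := fun i =>
      Finset.mem_image_of_mem _ (Finset.mem_univ i)
    obtain ⟨i, hi⟩ := hc (fun i => f (pt c s i)) (fun a b => hf _ (hm a) _ (hm b)) k
    exact hi (hk _ (hm i))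
  refine ⟨Finset.univ.image (pt c s), Finset.univ_nonempty.image _, ?_, main, fun h => ?_⟩
  · intro x hx
    obtain ⟨i, -, rfl⟩ := Finset.mem_image.1 hx
    exact pt_norm h1 i
  · obtain ⟨D, -, hD⟩ := h 12 (by norm_num)
    obtain ⟨col, hc⟩ := main D
    obtain ⟨f, hf, k, hk⟩ := hD col
    exact hc f (fun x hx y hy => hf x (Finset.mem_coe.2 hx) y (Finset.mem_coe.2 hy))
      ⟨k, fun x hx => hk x (Finset.mem_coe.2 hx)⟩

end Vale.Agent.Results.P058.SphericalNotRamsey
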